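import Vale.Agent.P213.Final

open CategoryTheory Vale.Agent.P213

theorem Vale.Agent.Results.P213.Thomason.result :
    IsModel (MorphismProperty.monomorphisms SSet.{0}) WHE KanFib ∧
      ∀ n : ℕ∞, 1 ≤ n → Limits.HasLimitsOfSize.{0, 0} (NCat n) ∧
        Limits.HasColimitsOfSize.{0, 0} (NCat n) ∧ Thomason n :=
  ⟨kq_model, fun n hn => ⟨hasLimits_NCat n, hasColimits_NCat n, thomason hn⟩⟩
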